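import Crest.Agent.N325.Mt.Walk
import Crest.Agent.N325.Bf.Walk
import Crest.Agent.N325.Lst.ListImpl

/-!
# Row 325, part II (helper12): the darts of a graph that is given by neighbour lists
-/

set_option autoImplicit false
open Finset

namespace Crest.Agent.N325.Ini

open Crest.Agent.N325.Mt Crest.Agent.N325.Bf

variable {g : Gl} {E : ℕ → ℕ → Prop}

/-- number of darts, tails, darts out of a vertex -/
def darts (n : ℕ) (A : Arr (List ℕ)) : R (ℕ × Arr ℕ × Arr (List ℕ)) :=
  rangeL n 0 >>= fun l =>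
  flatMapL (fun v => flatMapP (fun u => if v < u then [v, u] else []) (A.get v)) l >>= fun T =>
  lenL T >>= fun nd => arrOfL T 0 (Arr.cst 0) >>= fun tl => rangeL nd 0 >>= fun D =>
  bucketP (fun o => tl.get o) D (Arr.cst []) >>= fun adj => pure (nd, tl, adj)

/-- the darts describe the graph -/
structure Dr (n : ℕ) (E : ℕ → ℕ → Prop) (nd : ℕ) (tl : ℕ → ℕ) (adj : ℕ → List ℕ) : Prop where
  even : nd % 2 = 0
  tl_lt : ∀ o < nd, tl o < n
  ne : ∀ o < nd, tl o ≠ tl (rv o)
  simple : ∀ o < nd, ∀ o' < nd, tl o = tl o' → tl (rv o) = tl (rv o') → o = o'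
  nodup : ∀ v, (adj v).Nodup
  mem : ∀ v o, o ∈ adj v ↔ o < nd ∧ tl o = v
  e : ∀ a b, (∃ o, o < nd ∧ tl o = a ∧ tl (rv o) = b) ↔ a < n ∧ b < n ∧ E a b

theorem rv_lt {nd o : ℕ} (h : nd % 2 = 0) (k : o < nd) : rv o < nd := by
  unfold rv; split_ifs <;> omega

theorem Dr.sum {n nd : ℕ} {tl : ℕ → ℕ} {adj : ℕ → List ℕ} (h : Dr n E nd tl adj) :
    ∑ v ∈ range n, (adj v).length = nd := by
  have := card_eq_sum_card_fiberwise (s := range nd) (t := range n) (f := tl)
    fun o k => by simpa using h.tl_lt o (by simpa using k)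
  rw [card_range] at this
  rw [this]
  refine sum_congr rfl fun v _ => ?_
  rw [← List.toFinset_card_of_nodup (h.nodup v)]
  congr 1; ext o; simp [h.mem]

theorem Dr.len {n nd : ℕ} {tl : ℕ → ℕ} {adj : ℕ → List ℕ} (h : Dr n E nd tl adj)
    {A : Arr (List ℕ)} (hA : Adj (range n) E A) (hn : ∀ v, (A.get v).Nodup) {v : ℕ} (hv : v < n) :
    (adj v).length = (A.get v).length := by
  rw [← List.length_map fun o => tl (rv o)]
  refine List.Perm.length_eq ((List.perm_ext_iff_of_nodup ?_ (hn v)).2 fun u => ?_)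
  · refine (h.nodup v).map_on fun o a o' b c => ?_
    rw [h.mem] at a b
    exact h.simple o a.1 o' b.1 (a.2.trans b.2.symm) c
  · rw [hA v (mem_range.2 hv), mem_range, List.mem_map]
    have := h.e v u
    simp only [h.mem, and_assoc]
    rw [this]; exact ⟨fun k => k.2, fun k => ⟨hv, k⟩⟩

theorem getD_vs (P : List (ℕ × ℕ)) (o : ℕ) :
    (vs P).getD o 0 = if o % 2 = 0 then (P.getD (o / 2) (0, 0)).1 else (P.getD (o / 2) (0, 0)).2 := by
  induction P generalizing o with
  | nil => simp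
  | cons e P ih =>
    rcases o with _ | _ | o
    · simp
    · simp
    · rw [vs_cons, List.getD_cons_succ, List.getD_cons_succ, ih,
        show (o + 1 + 1) / 2 = o / 2 + 1 by omega, List.getD_cons_succ,
        show (o + 1 + 1) % 2 = o % 2 by omega]

theorem dr_vs {n : ℕ} {P : List (ℕ × ℕ)} (hE : ∀ a b, E a b → E b a) (hi : ∀ a, ¬E a a)
    (nd : P.Nodup) (mem : ∀ a b, (a, b) ∈ P ↔ a < b ∧ b < n ∧ E a b) :
    Dr n E (2 * P.length) (fun o => (vs P).getD o 0) fun v =>
      ((List.range (2 * P.length)).filter fun o => (vs P).getD o 0 = v).reverse := by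
  have key : ∀ o < 2 * P.length, ∃ a b, P[o / 2]? = some (a, b) ∧ a < b ∧ b < n ∧ E a b ∧
      (o % 2 = 0 ∧ (vs P).getD o 0 = a ∧ (vs P).getD (rv o) 0 = b ∨
        o % 2 = 1 ∧ (vs P).getD o 0 = b ∧ (vs P).getD (rv o) 0 = a) := fun o k => by
    have l : o / 2 < P.length := by omega
    obtain ⟨x, y, z⟩ := (mem P[o / 2].1 P[o / 2].2).1 (List.getElem_mem l)
    refine ⟨_, _, List.getElem?_eq_getElem l, x, y, z, ?_⟩
    rw [getD_vs, getD_vs, rv_div, List.getD_eq_getElem _ _ l]
    rcases Nat.mod_two_eq_zero_or_one o with c | c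
    · exact .inl ⟨c, if_pos c, if_neg (by unfold rv; rw [if_pos c]; omega)⟩
    · exact .inr ⟨c, if_neg (by omega), if_pos (by unfold rv; rw [if_neg (by omega)]; omega)⟩
  refine ⟨by omega, fun o k => ?_, fun o k => ?_, fun o k o' k' x y => ?_, fun v => ?_,
    fun v o => by simp, fun a b => ⟨?_, fun ⟨x, y, z⟩ => ?_⟩⟩
  · obtain ⟨a, b, -, _, _, -, c⟩ := key o k; omega
  · obtain ⟨a, b, -, _, _, -, c⟩ := key o k; omega
  · obtain ⟨a, b, p, _, _, -, c⟩ := key o k
    obtain ⟨a', b', p', _, _, -, c'⟩ := key o' k'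
    have e : a = a' ∧ b = b' ∧ o % 2 = o' % 2 := by omega
    obtain ⟨rfl, rfl, e⟩ := e
    have := (List.nodup_iff_getElem?_ne_getElem?).1 nd
    have : o / 2 = o' / 2 := by
      by_contra ne
      rcases Nat.lt_or_gt_of_ne ne with l | l
      · exact this _ _ l (by omega) (p.trans p'.symm)
      · exact this _ _ l (by omega) (p'.trans p.symm)
    omega
  · exact List.nodup_reverse.2 (List.nodup_range.filter _)
  · rintro ⟨o, k, rfl, rfl⟩
    obtain ⟨a, b, -, _, _, z, ⟨-, c, d⟩ | ⟨-, c, d⟩⟩ := key o k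
    · rw [c, d]; exact ⟨by omega, by omega, z⟩
    · rw [c, d]; exact ⟨by omega, by omega, hE _ _ z⟩
  · rcases lt_trichotomy a b with l | rfl | l
    · obtain ⟨i, hi', e⟩ := List.getElem_of_mem ((mem a b).2 ⟨l, y, z⟩)
      obtain ⟨a', b', p, -, -, -, c⟩ := key (2 * i) (by omega)
      rw [show 2 * i / 2 = i by omega, List.getElem?_eq_getElem hi', e] at p
      obtain ⟨rfl, rfl⟩ : a = a' ∧ b = b' := by simpa using p
      exact ⟨2 * i, by omega, by omega, by omega⟩
    · exact absurd z (hi _)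
    · obtain ⟨i, hi', e⟩ := List.getElem_of_mem ((mem b a).2 ⟨l, x, hE _ _ z⟩)
      obtain ⟨a', b', p, -, -, -, c⟩ := key (2 * i + 1) (by omega)
      rw [show (2 * i + 1) / 2 = i by omega, List.getElem?_eq_getElem hi', e] at p
      obtain ⟨rfl, rfl⟩ : b = a' ∧ a = b' := by simpa using p
      exact ⟨2 * i + 1, by omega, by omega, by omega⟩

theorem sp_darts {n : ℕ} {A : Arr (List ℕ)} (hE : ∀ a b, E a b → E b a) (hi : ∀ a, ¬E a a)
    (hA : Adj (range n) E A) (nd : ∀ v, (A.get v).Nodup) :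
    Sp g (darts n A) fun r t => Dr n E r.1 r.2.1.get r.2.2.get ∧
      r.1 = ∑ v ∈ range n, (A.get v).length ∧ t ≤ 8 * n + 13 * r.1 + 9 := by
  refine (sp_rangeL_zero n).bind ?_
  rintro _ t0 ⟨rfl, e0⟩
  have f1 : ∀ v (l : List ℕ), (l.flatMap fun u => if v < u then [v, u] else []) =
      vs ((l.filter fun u => v < u).map fun u => (v, u)) := fun v l => by
    induction l with
    | nil => rfl
    | cons u l ih => by_cases c : v < u <;> simp [c, ih]
  refine (sp_flatMapL (fun v => vs (((A.get v).filter fun u => v < u).map fun u => (v, u)))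
    (fun v => 6 * (A.get v).length + 2)
    fun v _ => (sp_flatMapP _ _).mono fun r t k => ⟨k.1.trans (f1 _ _), ?_⟩).bind
      fun T t1 ⟨a1, e1⟩ => ?_
  · have := k.2
    rw [f1, length_vs, List.length_map] at this
    have := List.length_filter_le (fun u => decide (v < u)) (A.get v)
    omega
  rw [← a1] at e1
  set P := (List.range n).flatMap fun v => ((A.get v).filter fun u => v < u).map fun u => (v, u)
    with hP
  have eT : T = vs P := by rw [a1, hP, vs, List.flatMap_assoc]; rfl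
  have mem : ∀ a b, (a, b) ∈ P ↔ a < b ∧ b < n ∧ E a b := fun a b => by
    simp only [hP, List.mem_flatMap, List.mem_range, List.mem_map, List.mem_filter, Prod.mk.injEq,
      decide_eq_true_eq]
    constructor
    · rintro ⟨_, x, _, ⟨y, z⟩, rfl, rfl⟩
      exact ⟨z, by simpa using (hA _ (mem_range.2 x) _).1 y⟩
    · exact fun ⟨x, y, z⟩ => ⟨a, by omega, b,
        ⟨(hA _ (mem_range.2 (by omega)) _).2 ⟨mem_range.2 y, z⟩, x⟩, rfl, rfl⟩
  have pn : P.Nodup := by
    refine List.nodup_flatMap.2 ⟨fun v _ => ((nd v).filter _).map fun a b c => by simpa using c, ?_⟩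
    refine List.nodup_range.pairwise_of_forall_ne fun a _ b _ c => ?_
    simp only [Function.onFun, List.disjoint_left, List.mem_map]
    rintro _ ⟨u, -, rfl⟩ ⟨u', -, e⟩
    exact c (by simpa using (congrArg Prod.fst e).symm)
  have dr := dr_vs hE hi pn mem
  refine (sp_lenL T).bind ?_
  rintro _ t2 ⟨rfl, e2⟩
  refine (sp_arrOfL_cst T 0).bind fun tl t3 ⟨a3, e3⟩ => (sp_rangeL_zero _).bind ?_
  rintro _ t4 ⟨rfl, e4⟩
  refine (sp_bucketP _ _ _).bind fun adj t5 ⟨a5, e5⟩ => ?_
  have dr' : Dr n E T.length tl.get adj.get := by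
    have : adj.get = fun v => ((List.range T.length).filter fun o => tl.get o = v).reverse :=
      funext fun v => by rw [a5]; simp
    rw [this, a3, eT, length_vs]; exact dr
  have s : T.length = ∑ v ∈ range n, (A.get v).length := by
    rw [← dr'.sum]; exact sum_congr rfl fun v hv => dr'.len hA nd (mem_range.1 hv)
  have c1 : ((List.range n).map fun v => 6 * (A.get v).length + 2).sum = 6 * T.length + 2 * n := by
    rw [← List.sum_toFinset _ List.nodup_range, List.toFinset_range, sum_add_distrib, ← mul_sum, s]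
    simp [mul_comm]
  refine ⟨dr', s, ?_⟩
  simp only [List.length_range] at e1 e5 ⊢
  omega

@[fun_prop] theorem impl_darts : Impl fun p : ℕ × Arr (List ℕ) => darts p.1 p.2 := by impl

end Crest.Agent.N325.Ini
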