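import Crest.Agent.N325.P2.Util
import Crest.Agent.N325.Ml.Defs
import Crest.Agent.N325.Fin.Defs
import Crest.Agent.N325.Ini.Dart

/-!
# Row 325, part II (helper12): the graph of darts and the start of a phase
-/

set_option autoImplicit false
open Finset

namespace Crest.Agent.N325.P2

open Crest.Agent.N325.Tw Crest.Agent.N325.Ip Crest.Agent.N325.Mt Crest.Agent.N325.Bf
  Crest.Agent.N325.Op

/-- the graph of darts -/
def mkG (n : ℕ) (A : Arr (List ℕ)) : R Gf :=
  Ini.darts n A >>= fun r => pure ⟨n, r.1, r.2.1, r.2.2, A⟩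

theorem sp_mkG {g : Gl} {n : ℕ} {E : ℕ → ℕ → Prop} {A : Arr (List ℕ)} (h : Fin.Cub n E A) :
    Sp g (mkG n A) fun G t => G.WF ∧ G.n = n ∧ G.E = E ∧ t ≤ 47 * n + 9 := by
  refine (Ini.sp_darts h.symm h.irr h.ad h.nd).bind fun r t ⟨a, b, c⟩ => ?_
  have l : r.1 ≤ 3 * n := by
    rw [b]; exact (sum_le_card_nsmul _ _ 3 fun v _ => h.deg v).trans (by simp [mul_comm])
  have e : Gf.E ⟨n, r.1, r.2.1, r.2.2, A⟩ = E := funext fun u => funext fun v =>
    propext ((a.e u v).trans ⟨fun k => k.2.2, fun k => ⟨(h.lt _ _ k).1, (h.lt _ _ k).2, k⟩⟩)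
  refine ⟨⟨a.even, a.tl_lt, a.ne, a.simple, fun v _ => a.nodup v, fun v _ => a.mem v, fun v => ?_,
    l, e ▸ h.ad, h.deg⟩, rfl, e, by omega⟩
  by_cases k : v < n
  · exact (a.len h.ad h.nd k).trans_le (h.deg v)
  · have : r.2.2.get v = [] := List.eq_nil_iff_forall_not_mem.2 fun o c => by
      obtain ⟨x, y⟩ := (a.mem v o).1 c
      exact k (y ▸ a.tl_lt o x)
    change (r.2.2.get v).length ≤ 3
    rw [this]; exact Nat.zero_le _

/-- the data at the start: exposed vertices are classes, all darts wait -/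
structure Fresh (G : Gf) (m : Arr ℕ) (d : Dt) : Prop where
  st : ∀ v < G.n, d.st.get v = if m.get v = v then 2 else 0
  cls : ∀ v < G.n, d.cls.get v = v
  mem : ∀ v < G.n, d.mem.get v = [v]
  cw : ∀ v, d.cw.get v = 1
  bs : ∀ v < G.n, d.bs.get v = v
  mt : d.mt = m
  pr : ∀ o, d.pr.get o = false
  Q : d.Q = List.range G.nd

/-- the fresh data -/
def iniD (G : Gf) (m : Arr ℕ) : R Dt :=
  tabP (fun v => if m.get v = v then 2 else 0) G.n (Arr.cst 0) >>= fun st =>
  tabP (fun v => v) G.n (Arr.cst 0) >>= fun i => tabP (fun v => [v]) G.n (Arr.cst []) >>= fun l =>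
  rangeL G.nd 0 >>= fun Q => pure ⟨st, i, l, .cst 1, i, m, .cst false, Q⟩

theorem sp_iniD {g : Gl} (G : Gf) (m : Arr ℕ) :
    Sp g (iniD G m) fun d t => Fresh G m d ∧ t = 3 * G.n + 2 * G.nd + 5 :=
  (sp_tabP _ _ _).bind fun _ _ a => (sp_tabP _ _ _).bind fun _ _ b => (sp_tabP _ _ _).bind
    fun _ _ c => (sp_rangeL_zero _).bind fun _ _ q =>
      ⟨⟨fun v k => (a.1 v).trans (if_pos k), fun v k => (b.1 v).trans (if_pos k),
        fun v k => (c.1 v).trans (if_pos k), fun _ => rfl, fun v k => (b.1 v).trans (if_pos k), rfl,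
        fun _ => rfl, q.1⟩, by omega⟩

section fresh
variable {D : ℕ} {C : Cf} {G : Gf} {m : Arr ℕ} {d : Dt}

theorem Fresh.isC_iff (h : Fresh G m d) {c : ℕ} : isC G d c ↔ c < G.n ∧ m.get c = c :=
  and_congr_right fun k => by rw [h.st c k, h.cls c k]; split_ifs with e <;> simp [e]

theorem Fresh.cmb (h : Fresh G m d) (hm : IsM (range G.n) G.E m.get) : Cmb G d := by
  have s2 : ∀ v < G.n, d.st.get v = 2 ↔ m.get v = v := fun v k => by
    rw [h.st v k]; split_ifs with e <;> simp [e]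
  have s1 : ∀ v < G.n, d.st.get v ≠ 1 := fun v k => by rw [h.st v k]; split_ifs <;> simp
  refine ⟨h.mt ▸ hm, fun v k => ?_, fun v k _ => h.cls v k, fun v k e => ?_,
    fun v k e => absurd e (s1 v k), fun v k e => ?_, fun c k => ?_, fun c k v => ?_, fun c k => ?_,
    fun c k => ?_, fun c k v a b => ?_, fun c k => ?_, fun o _ e => by simp [h.pr] at e⟩
  · rw [h.st v k]; split_ifs <;> simp
  · have ne : m.get v ≠ v := fun c => by have := (s2 v k).2 c; omega
    rw [h.mt, h.st _ (mem_range.1 (hm.mem (mem_range.2 k))), hm.inv (mem_range.2 k), if_neg ne.symm]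
    exact ⟨rfl, ne⟩
  · rw [h.cls v k]; exact h.isC_iff.2 ⟨k, (s2 v k).1 e⟩
  · rw [h.mem c k.1]; simp
  · rw [h.mem c k.1, List.mem_singleton]
    exact ⟨fun e => e ▸ k, fun e => (h.cls v e.1).symm.trans e.2.2⟩
  · rw [h.mem c k.1, h.cw]; rfl
  · rw [h.mem c k.1, h.bs c k.1, h.mt]; exact ⟨by simp, .inl (h.isC_iff.1 k).2⟩
  · rw [h.mem c k.1, List.mem_singleton] at a
    exact absurd (a.trans (h.bs c k.1).symm) b
  · rw [h.mem c k.1]; simpa using FC.single c

theorem Fresh.qok (h : Fresh G m d) : QOk G d :=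
  ⟨fun o k => by simpa [h.Q] using k, fun o k => .inl (by simpa [h.Q] using k)⟩

/-- the two arcs of a vertex -/
def oxs (D : ℕ) (C : Cf) (m : Arr ℕ) (v : ℕ) : List Ox :=
  if m.get v = v then [(5 * v + 1, false, some (capA 0 (v + 1) C.B, (D : ℤ))),
    (5 * v + 2, false, some (snkA C v 2, (D : ℤ)))]
  else [(5 * v + 3, false, some (aG C v, (C.lam : ℤ))),
    (5 * v + 4, false, some (aU D C v, (C.lam : ℤ)))]

theorem oxs_nodup (n : ℕ) : (((List.range n).flatMap (oxs D C m)).map Prod.fst).Nodup := by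
  rw [List.map_flatMap]
  refine List.nodup_flatMap.2 ⟨fun v _ => by unfold oxs; split_ifs <;> simp, ?_⟩
  refine List.nodup_range.pairwise_of_forall_ne fun a _ b _ c => ?_
  simp only [Function.onFun, List.disjoint_left, oxs]
  split_ifs <;> simp <;> omega

theorem Fresh.has_iff (h : Fresh G m d) (e : ℕ) :
    has G d e ↔ e ∈ ((List.range G.n).flatMap (oxs D C m)).map Prod.fst := by
  have : e ∈ ((List.range G.n).flatMap (oxs D C m)).map Prod.fst ↔ e / 5 < G.n ∧
      if m.get (e / 5) = e / 5 then e % 5 = 1 ∨ e % 5 = 2 else e % 5 = 3 ∨ e % 5 = 4 := by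
    rw [List.map_flatMap, List.mem_flatMap]
    constructor
    · rintro ⟨v, a, b⟩
      rw [List.mem_range] at a
      unfold oxs at b
      split_ifs at b with c <;> simp only [List.map_cons, List.map_nil, List.mem_cons,
        List.not_mem_nil, or_false] at b <;> obtain rfl : v = e / 5 := by omega
      · rw [if_pos c]; omega
      · rw [if_neg c]; omega
    · rintro ⟨a, b⟩
      refine ⟨e / 5, List.mem_range.2 a, ?_⟩
      unfold oxs
      split_ifs at b ⊢ <;> simp <;> omega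
  rw [this]
  obtain ⟨v, rfl | rfl | rfl | rfl | rfl⟩ := id_cases e
  · rw [has0, h.pr]; split_ifs <;> simp
  · rw [has1, show (5 * v + 1) / 5 = v by omega, h.mt]
    refine and_congr_right fun k => ?_
    rw [h.st v k]; split_ifs with c <;> simp [c]
  · rw [has2, show (5 * v + 2) / 5 = v by omega, h.isC_iff]
    refine and_congr_right fun k => ?_
    split_ifs with c <;> simp [c]
  · rw [has3, show (5 * v + 3) / 5 = v by omega]
    refine and_congr_right fun k => ?_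
    rw [h.st v k]; split_ifs with c <;> simp
  · rw [has4, show (5 * v + 4) / 5 = v by omega]
    refine and_congr_right fun k => ?_
    rw [h.st v k]; split_ifs with c <;> simp

theorem Fresh.arc (h : Fresh G m d) {o : Ox} (ho : o ∈ (List.range G.n).flatMap (oxs D C m)) :
    o.2.1 = false ∧ ∃ x : ℤ, o.2.2 = some (arcOf D C G d o.1, x) ∧
      (x = D ∧ (o.1 % 5 = 1 ∨ o.1 % 5 = 2) ∨ x = C.lam ∧ (o.1 % 5 = 3 ∨ o.1 % 5 = 4)) := by
  obtain ⟨v, a, b⟩ := List.mem_flatMap.1 ho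
  rw [List.mem_range] at a
  unfold oxs at b
  split_ifs at b with c <;> simp only [List.mem_cons, List.not_mem_nil, or_false] at b <;>
    rcases b with rfl | rfl
  · exact ⟨rfl, _, by rw [arcOf1, aE, h.mt, if_pos c, c, h.cls v a], .inl ⟨rfl, by omega⟩⟩
  · exact ⟨rfl, _, by rw [arcOf2, h.cw], .inl ⟨rfl, by omega⟩⟩
  · exact ⟨rfl, _, by rw [arcOf3], .inr ⟨rfl, by omega⟩⟩
  · exact ⟨rfl, _, by rw [arcOf4], .inr ⟨rfl, by omega⟩⟩

theorem sum_map_flatMap {M α β : Type} [AddCommMonoid M] (f : β → M) (F : α → List β) (l : List α) :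
    ((l.flatMap F).map f).sum = (l.map fun v => ((F v).map f).sum).sum := by
  induction l with
  | nil => rfl
  | cons a l ih => simp [ih]

theorem Fresh.arcs (h : Fresh G m d) :
    Arcs D C G d (apps Net.emp ((List.range G.n).flatMap (oxs D C m))) := by
  have nd := oxs_nodup (D := D) (C := C) (m := m) G.n
  refine .of (fun e => ?_) (fun e he => ?_) fun v _ => ?_
  · rw [h.has_iff (D := D) (C := C)]
    refine ⟨fun k => by_contra fun c => by simpa [Net.emp] using (apps_ne c).1.1 k, fun k => ?_⟩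
    obtain ⟨o, ho, rfl⟩ := List.mem_map.1 k
    obtain ⟨-, x, e, -⟩ := h.arc ho
    exact (apps_mem nd ho).1.2 (by simp [e])
  · have k : e ∈ ((List.range G.n).flatMap (oxs D C m)).map Prod.fst :=
      by_contra fun c => by simpa [Net.emp] using (apps_ne c).1.1 he
    obtain ⟨o, ho, rfl⟩ := List.mem_map.1 k
    obtain ⟨-, x, e, -⟩ := h.arc ho
    exact ((apps_mem nd ho).2 _ e).1
  · rw [dv_apps nd, sum_map_flatMap, List.sum_eq_zero]
    · rfl
    · intro x hx
      obtain ⟨u, -, rfl⟩ := List.mem_map.1 hx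
      unfold oxs
      split_ifs <;> simp [old, Net.emp, ct, capA, snkA, aG, aU]
end fresh

section prog
variable {T : Type} (E : Env T)

/-- the two arcs of a vertex; `z = 2 Z`, `p = 5 Ph Z`, `u = 2 D` -/
def iniO (m : Arr ℕ) (z p u v : ℕ) : R (List Ox) :=
  nat (5 * v) >>= fun a =>
  if m.get v = v then
    pure [(a + 1, false, some (⟨0, v + 1, 0, 1, 0, 0, 0, 1, E.C.B⟩, (E.P.D : ℤ))),
      (a + 2, false, some (⟨v + 1, 0, 0, z, 0, 0, 0, 1, E.C.M⟩, (E.P.D : ℤ)))]
  else pure [(a + 3, false, some (⟨0, v + 1, p, 1, 0, 0, 0, 1, E.C.M⟩, (E.C.lam : ℤ))),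
    (a + 4, false, some (⟨v + 1, 0, 0, 1, 0, z, E.P.D, 1, u⟩, (E.C.lam : ℤ)))]

/-- **INIT** -/
def ini (t : T) (m : Arr ℕ) : R (S T) :=
  iniD E.G m >>= fun d => nat (2 * E.C.Z) >>= fun z => nat (5 * E.C.Ph * E.C.Z) >>= fun p =>
  nat (2 * E.P.D) >>= fun u => rangeL E.G.n 0 >>= fun l => flatMapL (iniO E m z p u) l >>= fun L =>
  init E.run t >>= fun s => ops E.run E.P L s >>= fun s' => pure (s', d)
end prog

namespace Cx
variable {T : Type} {X : Cx T} {m : Arr ℕ} {d : Dt}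

theorem Ok.big_ini (h : X.Ok) (f : Fresh X.G m d) {o : Ox}
    (ho : o ∈ (List.range X.G.n).flatMap (oxs X.P.D X.C m)) {u : Arc × ℤ} (e : o.2.2 = some u) :
    Big X.P u.1 u.2 := by
  obtain ⟨-, x, e', k⟩ := f.arc ho
  obtain rfl : u = (_, x) := Option.some.inj (e.symm.trans e')
  have := h.lam_le'; have := h.BD_le; have := h.B.2
  refine h.big (arcOf_o1 _) (by omega) ?_
  unfold arcOf
  split_ifs <;> simp only [aP, aE, capA, snkA, aG, aU] <;> omega

theorem Ok.pot_ini (h : X.Ok) (f : Fresh X.G m d) (c : Cmb X.G d) :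
    pot X.P X.Bd (apps Net.emp ((List.range X.G.n).flatMap (oxs X.P.D X.C m))) ≤
      X.G.n * (1 + (2 * X.C.Z + 4) * X.Lg) := by
  rw [pot_apps (oxs_nodup _), pot_emp, zero_add, sum_map_flatMap]
  refine (List.sum_le_card_nsmul _ (1 + (2 * X.C.Z + 4) * X.Lg) fun x hx => ?_).trans
    (by rw [List.length_map, List.length_range, nsmul_eq_mul])
  obtain ⟨v, hv, rfl⟩ := List.mem_map.1 hx
  have key : ∀ o ∈ oxs X.P.D X.C m v, ∀ u, o.2.2 = some u → bar X.P X.Bd u.1 u.2 ≤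
      u.1.p * (((u.2 : ℝ) + u.1.o1) / X.P.D) + (u.1.c1 + u.1.c2 + u.1.c3) * X.Lg := fun o a u e => by
    have ho := List.mem_flatMap.2 ⟨v, hv, a⟩
    have b := h.big_ini f ho e
    obtain ⟨-, x, e', -⟩ := f.arc ho
    obtain rfl : u = (_, x) := Option.some.inj (e.symm.trans e')
    exact (bar_le h.D_pos (h.arc c ((f.has_iff _).2 (List.mem_map_of_mem ho))) b.1 b.2
      h.s0_pos).trans (add_le_add_right (mul_le_mul_of_nonneg_left h.log_le (by positivity)) _)
  have := h.Lg_nonneg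
  unfold oxs at key ⊢
  split_ifs at key ⊢
  · have a := key _ List.mem_cons_self _ rfl
    have b := key _ (List.mem_cons_of_mem _ List.mem_cons_self) _ rfl
    simp [capA, snkA, old, Net.emp] at a b ⊢
    linarith
  · have a := key _ List.mem_cons_self _ rfl
    have b := key _ (List.mem_cons_of_mem _ List.mem_cons_self) _ rfl
    have l : (20000 : ℝ) * (X.C.Ph * X.C.Z * X.C.lam) ≤ X.P.D := by exact_mod_cast h.lam_le
    have p : (0 : ℝ) < X.P.D := by exact_mod_cast h.D_pos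
    have q : (5 : ℝ) * X.C.Ph * X.C.Z * (X.C.lam / X.P.D) ≤ 1 := by
      rw [← mul_div_assoc, div_le_one p]
      have : (0 : ℝ) ≤ X.C.Ph * X.C.Z * X.C.lam := by positivity
      linarith
    simp [aG, aU, old, Net.emp] at a b ⊢
    linarith

theorem nS_le (d : Dt) (i : ℕ) : X.nS d i ≤ X.G.n := (card_filter_le _ _).trans (by simp)

theorem Ok.Psi_ini (h : X.Ok) (f : Fresh X.G m d) : X.Ψ d ≤
    X.G.n * (2 * X.C.Z * X.Lg + 15 * X.C.Z + X.C.K) +
      X.Au * ((ex (range X.G.n) m.get : ℝ) - X.xm) := by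
  have p : (0 : ℝ) < X.P.D := by exact_mod_cast h.D_pos
  have l : Real.log 2 ≤ lM X.P X.Bd := Real.log_le_log two_pos (by
    rw [le_div_iff₀ p, ← h.Mu]; have := h.BD_le; exact_mod_cast (by omega : 2 * X.P.D ≤ X.C.M))
  have l0 := (Real.log_pos one_lt_two).le.trans l
  have o : 0 ≤ X.offs d := add_nonneg (sum_nonneg fun c _ => mul_nonneg (by positivity) (by
    rw [f.cw, Nat.cast_one, one_add_one_eq_two]; linarith)) (by positivity)
  have a : (X.nS d 0 : ℝ) ≤ X.G.n := by exact_mod_cast nS_le d 0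
  have b : (X.nS d 1 : ℝ) ≤ X.G.n := by exact_mod_cast nS_le d 1
  have c : (d.Q.length : ℝ) ≤ 3 * X.G.n := by
    rw [f.Q, List.length_range]; exact_mod_cast h.wf.nd_le
  have t : (X.Th d : ℝ) ≤ X.G.n * X.C.K := by
    exact_mod_cast (sum_le_card_nsmul _ _ X.C.K fun v _ => Nat.sub_le _ _).trans
      (Nat.mul_le_mul_right _ (nS_le d 2))
  have z := mul_le_mul_of_nonneg_left (by linarith : (8 : ℝ) * X.nS d 0 + 4 * X.nS d 1 +
    d.Q.length ≤ 15 * X.G.n) (Nat.cast_nonneg (α := ℝ) X.C.Z)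
  unfold Ψ; rw [f.mt]; linarith

/-- **the start of a phase** -/
theorem initSpec (h : X.Ok) (hF : X.k.AR + 4 * X.k.AU * X.G.n ≤ X.Bd.F) :
    X.InitSpec (ini X.toEnv) (X.k.AR + X.κ * (X.G.n + 1) * X.C.Z ^ 2) := fun t m ht hm => by
  have hM := h.M_le_X
  have gX : 5 * X.C.Ph * X.C.Z ≤ X.g.X := by
    have := h.lam_le; have := h.BD_le
    have := Nat.le_mul_of_pos_right (X.C.Ph * X.C.Z) h.lam_pos
    rw [mul_assoc]; omega
  have z2 : 2 * X.C.Z ≤ 5 * X.C.Ph * X.C.Z :=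
    Nat.mul_le_mul_right _ (by have := h.Ph; omega)
  have := h.BD_le; have := h.n_le_M
  refine (sp_iniD _ m).bind fun d t0 ⟨f, e0⟩ => ?_
  simp only [sp_bind, sp_nat]
  refine ⟨by omega, gX, by omega, (sp_rangeL_zero _).mono ?_⟩
  rintro _ t1 ⟨rfl, e1⟩
  refine (sp_flatMapL (oxs X.P.D X.C m) (fun _ => 0) fun v hv => ?_).mono ?_
  · rw [List.mem_range] at hv
    simp only [iniO, sp_bind, sp_nat, sp_ite, sp_pure, oxs]
    exact ⟨by omega, fun c => ⟨by rw [if_pos c, snkA, mul_comm _ 2]; rfl, le_rfl⟩,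
      fun c => ⟨by rw [if_neg c]; rfl, le_rfl⟩⟩
  rintro L t2 ⟨eL, e2⟩
  have len : L.length = 2 * X.G.n := by
    have : ∀ v, (oxs X.P.D X.C m v).length = 2 := fun v => by unfold oxs; split_ifs <;> rfl
    rw [eL, List.length_flatMap]; simp [this, mul_comm]
  rw [← eL, len] at e2
  simp only [List.map_const', List.sum_replicate, smul_zero, List.length_range] at e2
  have c := f.cmb hm
  refine (h.ip.init ht).mono fun s t3 ⟨i, lg, e3⟩ => (sp_ops h.ip i (l := L) ?_ ?_).mono ?_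
  · have : ((X.k.AR + 4 * X.k.AU * X.G.n : ℕ) : ℝ) ≤ X.Bd.F := by exact_mod_cast hF
    have : (0 : ℝ) ≤ t3 := by positivity
    rw [len]; push_cast at *; linarith
  · subst eL
    refine oks_of_nodup (oxs_nodup _) fun o ho => ⟨by simp [(f.arc ho).1, Net.emp], fun u e => ?_⟩
    refine ⟨?_, h.dom (h.big_ini f ho e)⟩
    obtain ⟨-, x, e', -⟩ := f.arc ho
    obtain rfl : u = (_, x) := Option.some.inj (e.symm.trans e')
    exact h.arc c ((f.has_iff _).2 (List.mem_map_of_mem ho))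
  rintro s' t4 ⟨i', n, u⟩
  have il : X.IL s Net.emp := ⟨i, fun e he => by simp [Net.emp] at he⟩
  refine ⟨_, ⟨il.up i' u, eL ▸ f.arcs, c, f.qok⟩, fun v _ => by rw [f.mt], ?_⟩
  have p1 := Pt_up u
  have p2 := h.pot_ini f c
  have p3 := h.Psi_ini f
  rw [← eL] at p2
  rw [len, show X.Pt s = X.Φ s by simp [Pt, lg]] at p1
  have k1 := h.AU_le
  have k2 := h.Lg_le
  have k3 : (20000 : ℝ) ≤ X.C.Z := by exact_mod_cast h.Z_pos
  have k4 : (4000 : ℝ) * (X.C.K + 5) ≤ X.C.Z := by exact_mod_cast h.Z.1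
  have k5 : ((t0 + t1 + t2 : ℕ) : ℝ) ≤ (17 * X.G.n + 9 : ℕ) := by
    have := h.wf.nd_le; exact_mod_cast (by omega : t0 + t1 + t2 ≤ 17 * X.G.n + 9)
  have n0 : (0 : ℝ) ≤ X.G.n := by positivity
  have a0 : (0 : ℝ) ≤ X.k.AU := by positivity
  have q1 : 1 + (2 * X.C.Z + 4) * X.Lg + (2 * X.C.Z * X.Lg + 15 * X.C.Z + X.C.K) ≤
      (X.C.Z : ℝ) ^ 2 - 1 := by nlinarith
  have q2 := mul_le_mul_of_nonneg_left q1 n0
  have q3 := mul_le_mul_of_nonneg_left (by linarith : pot X.P X.Bd (apps Net.emp L) + X.Ψ d ≤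
    X.G.n * ((X.C.Z : ℝ) ^ 2 - 1) + X.Au * ((ex (range X.G.n) m.get : ℝ) - X.xm))
    (Nat.cast_nonneg (α := ℝ) X.κ)
  have q4 := mul_le_mul_of_nonneg_right k1 n0
  have q5 : (X.κ : ℝ) * 1 ≤ X.κ * X.C.Z ^ 2 :=
    mul_le_mul_of_nonneg_left (by nlinarith) (by positivity)
  have q6 := mul_nonneg a0 n0
  simp only [Tot]
  push_cast at *
  linarith

end Cx

end Crest.Agent.N325.P2
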