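import Crest.Agent.N325.Ini.Init
import Crest.Agent.N325.P2.Rp

/-!
# Row 325, part II (helper12): the graph of darts and the start of a phase are implementable
-/

set_option autoImplicit false

namespace Crest.Agent.N325.P2

variable {α T : Type} [Rp α] [Rp T]

@[fun_prop] theorem impl_mkG {n : α → ℕ} {A : α → Arr (List ℕ)} (hn : Pu true n) (hA : Pu true A) :
    Impl fun a => mkG (n a) (A a) := by impl
@[fun_prop] theorem impl_iniD {G : α → Gf} {m : α → Arr ℕ} (hG : Pu true G) (hm : Pu true m) :
    Impl fun a => iniD (G a) (m a) := by impl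
@[fun_prop] theorem impl_ini {E : α → Env T} {t : α → T} {m : α → Arr ℕ} (hE : Pu true E)
    (ht : Pu true t) (hm : Pu true m) : Impl fun a => ini (E a) (t a) (m a) := by impl
theorem impl_ini' : Impl fun p : Env T × T × Arr ℕ => ini p.1 p.2.1 p.2.2 := by impl

end Crest.Agent.N325.P2
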